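import Vale.Agent.P011LM.Lie
import Vale.Agent.P011LG.Psi
import Vale.Agent.P011LC.NC

/-!
The automorphisms of the algebraic group `E₆`.
-/

set_option linter.all false
set_option maxSynthPendingDepth 3

open Matrix Function

namespace Vale.Agent.P011LM

open Vale.Agent.P011L Vale.Agent.P011LA Vale.Agent.P011LN Vale.Agent.P011LT Vale.Agent.P011LC

variable {K : Type} [Field K] {X : Matrix J J K} {ρ : SE K →* Matrix J J K} {μ : Z6}

/-- the representation is polynomial on the one-parameter groups, and has a differential -/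
def Gd (ρ : SE K →* Matrix J J K) : Prop :=
  (∀ X (h : Nl X) a b, (fun s => ρ (h.u s) a b) ∈ P1 K) ∧
    ∃ D : Matrix J J K →ₗ[K] Matrix J J K, ∀ X (h : Nl X) Y, (∀ s, ρ (h.u s) = 1 + s • Y) → D X = Y

/-- the standard representation -/
def st : SE K →* Matrix J J K := (Units.coeHom _).comp (SE K).subtype

theorem cjh_eq (s : GL J K) (x y : Matrix J J K) : cjh s x = y ↔ x * s.1 = s.1 * y := by
  rw [← Units.inv_mul_eq_iff_eq_mul, ← mul_assoc]
  rfl

theorem Gd.cjh (h : Gd ρ) (s : GL J K) : Gd ((cjh s).comp ρ) := by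
  obtain ⟨a, D, b⟩ := h
  refine ⟨fun X h => conj_mem _ (a X h) _ _, .mulLeftRight K ((s⁻¹).1, s.1) ∘ₗ D, fun X h Y e => ?_⟩
  rw [LinearMap.comp_apply, b X h (s.1 * Y * (s⁻¹).1) fun t => by
    rw [← Units.mul_inv_cancel_right (ρ _) s, (cjh_eq _ _ _).1 (e t)]
    simp [mul_add, add_mul]]
  simp [mul_assoc]

theorem wt_sr (r : Fin 6) (h : Wt (ρ.comp tor) μ) : Wt (ρ.comp tor) (sr r μ) :=
  h.conj (n := ρ (nn r 1)) (n' := ρ (nn r 1)⁻¹) (by rw [← map_mul, inv_mul_cancel, map_one]) fun t =>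
    ((nn_mn r (one_mul 1)).tor t).imp fun u e =>
      ⟨by simp only [MonoidHom.comp_apply, ← map_mul, e.1], e.2 μ⟩

theorem wt_top (a : J) : Wt (ρ.comp tor) (w a) ↔ Wt (ρ.comp tor) (w top) :=
  one_ind (fun a => Wt (ρ.comp tor) (w a) ↔ Wt (ρ.comp tor) (w top)) Iff.rfl (fun r a _ h => by
    rw [← h, (tab r a).2.1]
    exact ⟨wt_sr r, fun e => sr_sr r (w a) ▸ wt_sr r e⟩) a

theorem cm_iff {e f : Matrix J J K} :
    (1 + (1 : K) • e) * (1 + (1 : K) • f) = (1 + (1 : K) • f) * (1 + (1 : K) • e) ↔ e * f = f * e := by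
  rw [← sub_eq_zero, ← sub_eq_zero (a := e * f), one_smul, one_smul,
    show (1 + e) * (1 + f) - (1 + f) * (1 + e) = e * f - f * e by noncomm_ring]

variable [CharZero K]

theorem wt_min (h : Gd ρ) (h0 : ¬Wt (ρ.comp tor) 0) (h1 : ∃ μ, Wt (ρ.comp tor) μ) :
    Wt (ρ.comp tor) (w top) ∨ Wt (ρ.comp tor) (-w low) := by
  haveI : Finite {μ // Wt (ρ.comp tor) μ} := by
    choose v a b using fun μ : {μ // Wt (ρ.comp tor) μ} => μ.2
    exact (wt_li Subtype.val_injective a b).finite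
  obtain ⟨ν, h2, h3⟩ := Set.exists_min_image {μ | Wt (ρ.comp tor) μ} (fun μ => B μ μ)
    (Set.finite_coe_iff.1 this) h1
  have h4 : ∀ μ, Wt (ρ.comp tor) μ → B μ μ = B ν ν → B μ th ≤ 3 := by
    refine th_of (fun γ => ∀ μ, Wt (ρ.comp tor) μ → B μ μ = B ν ν → B μ γ ≤ 3)
      (fun r γ a μ b c => ?_) fun μ a b => ?_
    · rw [(B_sr ..).2, ← (B_sr ..).1]
      exact a _ (wt_sr r b) ((B_sr2 ..).trans c)
    · by_contra c
      have e : B μ (al 5) = 3 * μ 5 := by simp [B, bm, al, Fin.sum_univ_six]; ring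
      have := h3 _ (sat (m := μ 5) (α := -al 5) (h.1 _ (ff_nl 5)) (h.1 _ (ee_nl 5))
        (fun t s => by simp only [MonoidHom.comp_apply, ← map_mul, (ff_nl 5).tor (ff_sh 5)])
        (fun t s => by simp only [MonoidHom.comp_apply, ← map_mul, neg_neg, (ee_nl 5).tor (ee_sh 5)])
        (by rw [Nl.u_zero, map_one]) (by rw [Nl.u_zero, map_one])
        (fun s t => by rw [Nl.u_add, map_mul]) (by omega) (by decide +kernel)
        (fun t => ((nn_mn 5 (c := -1) (by simp)).tor t).imp fun u e => ⟨by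
          simpa only [MonoidHom.comp_apply, ← map_mul, nn, neg_neg] using congrArg ρ e.1, by
          rw [e.2, sr_sr, sr, smul_neg, sub_neg_eq_add, sub_add_cancel]⟩) (wt_sr 5 a))
      have e' : ∀ y, B (y - -al 5) (y - -al 5) = B y y + 6 * y 5 + 6 := fun y => by
        simp only [B, Fin.sum_univ_six, Pi.sub_apply, Pi.neg_apply]
        simp [bm, al]
        ring
      simp only [e', B_sr2, b] at this
      simp only [sr, Pi.sub_apply, Pi.smul_apply, al_self, smul_eq_mul] at this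
      omega
  refine dom_ind (I := {μ : {μ // Wt (ρ.comp tor) μ} // B μ μ = B ν ν}) (·.1.1)
    (fun r μ => ⟨⟨_, wt_sr r μ.1.2⟩, (B_sr2 ..).trans μ.2⟩) (fun _ _ => rfl) (fun _ => _)
    (fun ⟨⟨μ, a⟩, b⟩ c => ?_) (fun _ _ _ a => a) ⟨⟨ν, h2⟩, rfl⟩
  have e := h4 μ a b
  simp [B, bm, th, Fin.sum_univ_six] at e
  have e0 : μ ≠ 0 := fun e => h0 (e ▸ a)
  have e1 : ∀ ν : Z6, μ = ν ↔ μ 0 = ν 0 ∧ μ 1 = ν 1 ∧ μ 2 = ν 2 ∧ μ 3 = ν 3 ∧ μ 4 = ν 4 ∧
      μ 5 = ν 5 := fun ν => by simp [funext_iff, Fin.forall_fin_succ]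
  have e2 : μ = w top ∨ μ = -w low := by
    rw [show w top = ![0, 0, 0, 0, 1, 0] by decide +kernel,
      show -w low = ![1, 0, 0, 0, 0, 0] by decide +kernel]
    simp only [Fin.forall_fin_succ] at c
    simp [e1] at e0 c ⊢
    omega
  exact e2.elim (fun e => .inl (e ▸ a)) fun e => .inr (e ▸ a)

theorem ed_of (hτ : ∀ t, ρ (tor t) = st (tor t)) {r : Fin 6} {e f : Matrix J J K}
    (he : Sh w (al r) e) (hf : Sh w (-al r) f) (hx : ∀ s, ρ ((ee_nl r).u s) = 1 + s • e)
    (hy : ∀ s, ρ ((ff_nl r).u s) = 1 + s • f) (a b : J) (h : w a = w b + al r) :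
    f b a * e a b = 1 := by
  have h1 := congrFun h r
  have h2 := (tab r a).2.2.2.2.2.1
  rw [Pi.add_apply, al_self] at h1
  refine edge he hf ((by decide +kernel : ∀ r, al r ≠ 0) r) (fun c e => w_inj (e.trans h.symm))
    (fun c e => ?_) (by_contra fun h3 => ?_)
  · have := congrFun e r
    have := (tab r c).2.2.2.2.1
    simp only [Pi.add_apply, al_self] at *
    omega
  have h4 : ρ (nn r 1) b b ≠ 0 := by
    simpa only [nn, map_mul, hx, hy, one_smul, neg_smul, ← sub_eq_add_neg] using h3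
  have h5 : w b = sr r (w b) := ch_inj (K := K) (MonoidHom.ext fun t => by
    obtain ⟨u, c, d⟩ := (nn_mn (K := K) r (one_mul 1)).tor t
    have := congrFun (congrFun (congrArg ρ c) b) b
    rw [map_mul, map_mul, hτ, hτ] at this
    erw [diagonal_mul, mul_diagonal, d, mul_comm] at this
    exact mul_left_cancel₀ h4 this)
  have := congrFun h5 r
  simp only [sr, Pi.sub_apply, Pi.smul_apply, al_self, smul_eq_mul] at this
  omega

theorem normal (h : Gd ρ) (hτ : ∀ t, ρ (tor t) = st (tor t)) : ∃ d : GL J K,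
    (∀ t, ρ (tor t) * d.1 = d.1 * st (tor t)) ∧ ∀ r s,
      ρ ((ee_nl r).u s) * d.1 = d.1 * st ((ee_nl r).u s) ∧
      ρ ((ff_nl r).u s) * d.1 = d.1 * st ((ff_nl r).u s) := by
  have sh : ∀ X (a : Nl X) γ r, Sh w γ X → γ r = 2 ∨ γ r = -2 →
      ∃ e, (∀ s, ρ (a.u s) = 1 + s • e) ∧ Sh w γ e := fun X a γ r b c =>
    shape (h.1 X a) (by rw [Nl.u_zero, map_one]) (fun t s => by
      have := congrArg ρ (a.tor b t s)
      rwa [map_mul, map_mul, hτ] at this) fun a b m hm e => by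
      have h1 := congrFun e r
      have h2 := (tab r a).2.2.2.2
      have h3 := (tab r b).2.2.2.2
      have h4 : (2 : ℤ) ≤ m := by exact_mod_cast hm
      rw [Pi.add_apply, Pi.smul_apply, nsmul_eq_mul] at h1
      rcases c with h5 | h5 <;> rw [h5] at h1 <;> omega
  choose e hx he using fun r => sh _ (ee_nl r) _ r (ee_sh r) (.inl (al_self r))
  choose f hy hf using fun r => sh _ (ff_nl r) _ r (ff_sh r) (.inr (congrArg Neg.neg (al_self r)))
  obtain ⟨d, d0, a, b⟩ := min_iso w al ht (fun r => by rw [ht_al]; decide)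
    (fun a a' b r h h' => w_inj (h.trans h'.symm))
    (fun a b b' r h h' => w_inj (add_right_cancel (h.symm.trans h'))) ee_sh ff_sh he hf
    (fun r => ed_of (ρ := st) (fun _ => rfl) (ee_sh r) (ff_sh r) (fun _ => rfl) fun _ => rfl)
    (fun r => ed_of hτ (he r) (hf r) (hx r) (hy r)) (fun r q => ee_cm) fun r q h => cm_iff.1 (by
      rw [← hx, ← hy, ← map_mul, ← map_mul]
      exact congrArg ρ (ext2 (cm_iff.2 (ee_cm h))))
  refine ⟨GeneralLinearGroup.mkOfDetNeZero (diagonal d) (by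
    rw [det_diagonal]; exact Finset.prod_ne_zero_iff.2 fun i _ => d0 i), fun t => ?_, fun r s => ?_⟩
  · rw [hτ]
    exact (diagonal_mul_diagonal _ _).trans ((diagonal_mul_diagonal _ _).trans
      (by simp only [mul_comm])).symm
  · show _ * diagonal d = diagonal d * (1 + s • ee r) ∧ _ * diagonal d = diagonal d * (1 + s • ff r)
    simp only [hx, hy, add_mul, mul_add, one_mul, mul_one, smul_mul_assoc, mul_smul_comm, a, b,
      and_self]

theorem fix (h : Gd ρ) (hx : ∀ r s, ρ ((ee_nl r).u s) = 1 + s • ee r)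
    (hy : ∀ r s, ρ ((ff_nl r).u s) = 1 + s • ff r) (g : SE K) : ∃ k : K, ρ g = k • g.1.1 := by
  obtain ⟨-, D, hD⟩ := h
  have i1 : ∀ g, ρ g * ρ g⁻¹ = 1 := fun g => by rw [← map_mul, mul_inv_cancel, map_one]
  have key : ∀ X (a : Nl X), (∀ s, ρ (a.u s) = 1 + s • X) → ∀ g, D (cj g X) = ρ g * X * ρ g⁻¹ :=
    fun X a b g => hD _ (a.cj g) _ fun s => by
      simp only [Nl.u_cj a, map_mul, b, mul_add, add_mul, mul_one, i1, smul_mul_assoc, mul_smul_comm]
  let E := ρ.toHomUnits.eqLocus (SE K).subtype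
  have hE : ∀ g ∈ E, ρ g = g.1.1 := fun g a => congrArg Units.val a
  have hL : ∀ X, X ∈ ⨅ g ∈ E, (LinearMap.eqLocus D .id).comap (cj g) ↔
      ∀ g ∈ E, D (cj g X) = cj g X := fun X => by simp [Submodule.mem_iInf]
  have k2 : ∀ X (a : Nl X), (∀ s, ρ (a.u s) = 1 + s • X) →
      X ∈ ⨅ g ∈ E, (LinearMap.eqLocus D .id).comap (cj g) := fun X a b => (hL X).2 fun g c => by
    rw [key X a b, hE g c, hE _ (inv_mem c), cj_apply]
  have k3 : ∀ X (a : Nl X), (∀ s, ρ (a.u s) = 1 + s • X) →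
      X * ((g⁻¹).1.1 * ρ g) = (g⁻¹).1.1 * ρ g * X := fun X a b => by
    have := (hL _).1 (lie (E := E) (fun r s => Units.ext (hx r s)) (fun r s => Units.ext (hy r s))
      (fun g c X d => (hL _).2 fun g' c' => cj_mul g' g X ▸ (hL X).1 d _ (mul_mem c' c))
      (fun r => k2 _ (ee_nl r) (hx r)) (fun r => k2 _ (ff_nl r) (hy r)) (a.cj g).g0) 1 (one_mem _)
    rw [← cj_mul, one_mul, key X a b, cj_apply] at this
    have h1 := congrArg (fun M => (g⁻¹).1.1 * M * ρ g) this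
    simpa [mul_assoc, ← map_mul] using h1.symm
  obtain ⟨k, hk⟩ := schur (fun r => k3 _ (ee_nl r) (hx r)) fun r => k3 _ (ff_nl r) (hy r)
  exact ⟨k, by rw [← Units.mul_inv_cancel_left g.1 (ρ g), ← Subgroup.coe_inv, hk, mul_smul_comm, mul_one]⟩

variable [IsAlgClosed K]

theorem main (hc : NoCh (SE K)) (σ : SE K →* SE K) (h : Gd (st.comp σ)) {a : J}
    (hw : Wt ((st.comp σ).comp tor) (w a)) : ∃ s ∈ SE K, ∀ g, (σ g).1.1 * s.1 = s.1 * g.1.1 := by
  obtain ⟨s, hs⟩ := exists_diag w_inj fun b => (wt_top b).2 ((wt_top a).1 hw)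
  obtain ⟨d, d1, d2⟩ := normal (h.cjh s) fun t => (cjh_eq ..).2 (hs t)
  have e1 : ∀ g, cjh s (st (σ g)) * d.1 = d.1 * st g → cjh (s * d) (st (σ g)) = st g := fun g e => by
    rw [← cjh_eq] at e
    rw [← e]
    simp [cjh, mul_assoc]
  generalize s * d = T at e1
  choose k hk using fix (h.cjh T) (fun r s => e1 _ (d2 r s).1) fun r s => e1 _ (d2 r s).2
  let F : T3 K := ((tri ∘ₗ T.1.mulVecLin).compl₂ T.1.mulVecLin).compr₂
    (LinearMap.lcomp K K T.1.mulVecLin)
  have hF : ∀ x y z, F x y z = tri (T.1 *ᵥ x) (T.1 *ᵥ y) (T.1 *ᵥ z) := fun x y z => by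
    simp only [F, LinearMap.comp_apply, LinearMap.compl₂_apply, LinearMap.compr₂_apply,
      LinearMap.lcomp_apply, mulVecLin_apply]
  obtain ⟨κ, hκ⟩ : ∃ κ, F (Pi.single top 1) (Pi.single low 1) (Pi.single mid 1) = -κ :=
    ⟨_, (neg_neg _).symm⟩
  have e2 : ∀ g, cjh T (st (σ g)) = st g → Iv (F - κ • tri) g := fun g e x y z => by
    have : T.1 * g.1.1 = (σ g).1.1 * T.1 := ((cjh_eq ..).1 e).symm
    simp only [LinearMap.sub_apply, LinearMap.smul_apply, tri_iv g x, hF, mulVec_mulVec, this]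
    simp only [← mulVec_mulVec, tri_iv (σ g) _]
  have e3 := uniq (fun t => e2 _ (e1 _ (d1 t))) (fun r => e2 _ (by
    simp only [nn, map_mul, e1 _ (d2 ..).1, e1 _ (d2 ..).2])) (by simp [hκ, tri_val])
  have e4 : ∀ x, cub (T.1 *ᵥ x) = κ * cub x := fun x => by
    have := congrArg (fun F : T3 K => F x x x) e3
    simp only [LinearMap.sub_apply, LinearMap.smul_apply, hF, tri_self, LinearMap.zero_apply,
      smul_eq_mul] at this
    linear_combination (1 / 6) * this
  have e5 : κ ≠ 0 := fun e => by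
    have := e4 ((T⁻¹).1 *ᵥ (Pi.single top 1 + Pi.single low 1 + Pi.single mid 1))
    rw [mulVec_mulVec, Units.mul_inv, one_mulVec, cub_val] at this
    simp [e] at this
  have e6 : ∀ g, (σ g).1.1 * T.1 = k g • (T.1 * g.1.1) := fun g =>
    ((cjh_eq ..).1 (hk g)).trans (mul_smul_comm ..)
  let χ : SE K →* K := ⟨⟨k, smul_left_injective K (one_ne_zero (α := Matrix J J K)) (by
      simpa using (hk 1).symm)⟩, fun g g' => smul_left_injective K (g * g').1.ne_zero (by
      simp only [← hk, map_mul]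
      simp [hk, smul_smul, mul_comm])⟩
  have e7 : ∀ g, k g = 1 := fun g => congrArg Units.val (hc _ χ.toHomUnits (fun g => Units.ext (by
    have := mem_SE.1 (σ g).2 (T.1 *ᵥ (Pi.single top 1 + Pi.single low 1 + Pi.single mid 1))
    rw [mulVec_mulVec, e6, smul_mulVec, cub_smul, ← mulVec_mulVec, e4, e4, mem_SE.1 g.2,
      cub_val] at this
    show k g ^ 6 = 1
    exact mul_left_cancel₀ e5 (by linear_combination -(k g ^ 3 + 1) * this))) g)
  obtain ⟨l, hl⟩ := IsAlgClosed.exists_pow_nat_eq κ⁻¹ three_pos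
  have l0 : l ≠ 0 := fun e => e5 (by simpa [e, eq_comm] using hl)
  refine ⟨⟨l • T.1, l⁻¹ • (T⁻¹).1, by simp [smul_smul, l0], by simp [smul_smul, l0]⟩,
    mem_SE.2 fun x => ?_, fun g => ?_⟩
  · rw [smul_mulVec, cub_smul, e4, hl, inv_mul_cancel_left₀ e5]
  · simp only [mul_smul_comm, smul_mul_assoc, e6, e7, one_smul]

theorem iT_ex (g : SE K) : ∃ g' : SE K, g'.1.1 = (g⁻¹).1.1ᵀ :=
  have ⟨g', a, b⟩ := P011LG.SE_invT IsAlgClosed.exists_eq_mul_self g.2
  ⟨⟨g', a⟩, b⟩

/-- the inverse transpose -/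
noncomputable def iT : SE K →* SE K := .mk' (fun g => (iT_ex g).choose) fun g h => ext2 (by
  rw [(iT_ex _).choose_spec]
  simp only [Subgroup.coe_mul, Units.val_mul, (iT_ex _).choose_spec, _root_.mul_inv_rev, transpose_mul])

theorem iT_val (g : SE K) : (iT g).1.1 = (g⁻¹).1.1ᵀ := (iT_ex g).choose_spec

theorem Gd.dual (h : Gd ρ) : Gd (ρ.comp iT) := by
  have e : ∀ X (a : Nl X) (s : K), (iT (a.u s)).1.1 = 1 + s • -Xᵀ := fun X a s => by
    simp [iT_val, Nl.u_inv, Nl.u_val]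
  have n : ∀ X : Matrix J J K, Nl X → Nl (-Xᵀ) := fun X a =>
    ⟨by rw [neg_mul_neg, ← transpose_mul, a.1, transpose_zero], fun s => e X a s ▸ mem_SE.1 (Subtype.prop _)⟩
  have e' : ∀ X (a : Nl X) s, iT (a.u s) = (n X a).u s := fun X a s => ext2 (e X a s)
  obtain ⟨a, D, b⟩ := h
  exact ⟨fun X c => by simpa only [MonoidHom.comp_apply, e'] using a _ (n X c),
    D ∘ₗ (-(transposeLinearEquiv J J K K).toLinearMap), fun X c Y d =>
      b _ (n X c) Y (by simpa only [MonoidHom.comp_apply, e'] using d)⟩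

/-- **the automorphisms of `E₆`** -/
theorem ce_of (hc : NCE) : CE := fun K _ _ _ ψ hψ _ => by
  let σ := ψ.toMonoidHom
  choose p hp using hψ
  have hG : Gd (st.comp σ) := by
    obtain ⟨D, hD⟩ := diff p
    refine ⟨fun X h a b => ?_, D, fun X h Y e => hD X Y fun s a b =>
      (hp a b (h.u s)).symm.trans (congrFun (congrFun (e s) a) b)⟩
    exact (funext fun s => hp a b (h.u s)).symm ▸ pol_mem (P1 K)
      (f := fun (e : J × J) (s : K) => (1 + s • X) e.1 e.2) (fun e => lin_P1 _ _) _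
  obtain ⟨δ, hδ⟩ := IsAlgClosed.exists_eq_mul_self (-3 : K)
  obtain ⟨ζ, h1, h2⟩ : ∃ ζ : Kˣ, ζ ^ (3 : ℤ) = 1 ∧ (ζ : K) ≠ 1 :=
    ⟨.mkOfMulEqOne ((δ - 1) / 2) ((-δ - 1) / 2) (by linear_combination (1 / 4) * hδ),
      Units.ext (by simp [zpow_ofNat]; linear_combination (3 - δ) / 8 * hδ), fun e => by
        simp at e
        exact (by norm_num : (12 : K) ≠ 0) (by linear_combination -hδ - 2 * (δ + 3) * e)⟩
  let t : Fin 6 → Kˣ := fun r => ζ ^ bm r 4
  have h3 : (tor t).1.1 = (ζ : K) • (1 : Matrix J J K) := by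
    rw [tor_val, smul_one_eq_diagonal]
    refine congrArg diagonal (funext fun a => ?_)
    have : ch (w a) t = (ζ ^ ∑ r, bm r 4 * w a r : Kˣ) := by
      simp [ch, t, Fin.prod_univ_six, Fin.sum_univ_six, zpow_add₀, _root_.zpow_mul]
    rw [this, zpow_eq_zpow_emod _ h1,
      (by decide +kernel : ∀ a, (∑ r, bm r 4 * w a r) % 3 = 1), zpow_one]
  have h4 : st (σ (tor t)) ≠ 1 := fun e => h2 (by
    have := congrArg (·.1.1 top top) (ψ.injective ((ext2 e).trans (map_one ψ).symm))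
    simpa [h3] using this)
  have h5 : ∀ X (a : Nl X), X * st (σ (tor t)) = st (σ (tor t)) * X := fun X a => by
    obtain ⟨g, hg⟩ := ψ.surjective (a.u 1)
    have := congrArg (st.comp σ) (ext2 (g := g * tor t) (h := tor t * g) (by simp [h3]))
    simp only [map_mul, MonoidHom.comp_apply] at this
    erw [hg] at this
    simpa [show st (a.u 1) = 1 + (1 : K) • X from rfl, mul_add, add_mul] using this
  obtain ⟨k, hk⟩ := schur (fun r => h5 _ (ee_nl r)) fun r => h5 _ (ff_nl r)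
  obtain ⟨y, -, hy⟩ := exists_wt ((st.comp σ).comp tor) (fun a b =>
    (funext fun t => hp a b (tor t)).symm ▸ pol_mem (Sp K ⊤)
      (f := fun (e : J × J) t => (tor t).1.1 e.1 e.2) (fun e => diag_mem (fun _ => AddSubgroup.mem_top _) _ _) _)
    ⟨t, h4⟩
  rcases wt_min hG (fun ⟨v, a, b⟩ => h4 (by
    have := b t
    erw [hk, ch_zero, smul_mulVec, one_mulVec] at this
    rw [hk, smul_left_injective K a this, one_smul])) ⟨y, hy⟩ with h | ⟨v, a, b⟩
  · exact (main (hc K) σ hG h).imp fun s h => ⟨h.1, .inl h.2⟩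
  · obtain ⟨s, c, d⟩ := main (hc K) (σ.comp iT) hG.dual (a := low) ⟨v, a, fun t => by
      have : iT (tor t) = tor t⁻¹ := ext2 (by rw [iT_val, ← map_inv, tor_val, diagonal_transpose])
      simpa only [MonoidHom.comp_apply, this, ch_inv, neg_neg] using b t⁻¹⟩
    refine ⟨s, c, .inr fun g => ?_⟩
    have := d (iT g)
    rwa [MonoidHom.comp_apply, show iT (iT g) = g from ext2 (by
      rw [iT_val, ← map_inv, iT_val, inv_inv, transpose_transpose]), iT_val] at this

theorem ce : CE := ce_of nce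

end Vale.Agent.P011LM
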