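import Vale.Agent.P011LE.IF

/-!
The normaliser of the standard subalgebra of type `A₁`.
-/

set_option linter.all false

open Matrix

namespace Vale.Agent.P011LM

open P011LE

variable {K : Type} [Field K] [CharZero K]

theorem io_all {v : R K} (h0 : v * io 1 (single 0 1 1) 0 = io 1 (single 0 1 1) 0 * v)
    (h1 : v * io 1 (single 1 0 1) 0 = io 1 (single 1 0 1) 0 * v) (m : Matrix (Fin 2) (Fin 2) K) :
    v * io 1 m 0 = io 1 m 0 * v := by
  have e : io (1 : GL S K) m 0 = m 0 1 • io 1 (single 0 1 1) 0 + m 1 0 • io 1 (single 1 0 1) 0 +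
      m 0 0 • (io 1 (single 0 1 1) 0 * io 1 (single 1 0 1) 0) +
      m 1 1 • (io 1 (single 1 0 1) 0 * io 1 (single 0 1 1) 0) := by
    simp only [io_mul, io_smul, io_add, mul_one, mul_zero, add_zero]
    congr 1
    ext i j
    fin_cases i <;> fin_cases j <;> simp
  rw [e]
  simp only [mul_add, add_mul, mul_smul_comm, smul_mul_assoc, ← mul_assoc, h0, h1]
  simp only [mul_assoc, h0, h1]

theorem cen' {u : (R K)ˣ} (hu : u ∈ SX K) (h : GL (Fin 2) K)
    (h0 : Ad u (io 1 (single 0 1 1) 0) = io 1 (h.1 * single 0 1 1 * h⁻¹.1) 0)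
    (h1 : Ad u (io 1 (single 1 0 1) 0) = io 1 (h.1 * single 1 0 1 * h⁻¹.1) 0) :
    ∃ (g : GL S K) (l : K), l ^ 2 = g.1.det * h.1.det ∧ u.1 = io g h.1 l := by
  obtain ⟨ν, ν0, hν⟩ := hu
  obtain ⟨v, rv⟩ : ∃ v, v = io 1 h⁻¹.1 1 * u.1 := ⟨_, rfl⟩
  have hv : u.1 = io 1 h.1 1 * v := by
    rw [rv, ← mul_assoc, io_mul, Units.mul_inv, mul_one, mul_one, io_one, one_mul]
  have c0 : ∀ m, Ad u (io 1 m 0) = io 1 (h.1 * m * h⁻¹.1) 0 → v * io 1 m 0 = io 1 m 0 * v :=
    fun m e => by
      rw [rv, mul_assoc, Ad_eq.1 e, ← mul_assoc, ← mul_assoc, io_mul, io_mul]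
      simp [← mul_assoc]
  have c := fun m y => LinearMap.congr_fun (io_all (c0 _ h0) (c0 _ h1) m) y
  simp only [Module.End.mul_apply] at c
  let j : (S → K) →ₗ[K] J K := ⟨⟨fun a => jm 0 (zero_mem _) (of ![a, 0]), fun a b => J_ext (by simp)
    (by ext i; fin_cases i <;> simp)⟩, fun t a => J_ext (by simp) (by ext i; fin_cases i <;> simp)⟩
  let q : J K →ₗ[K] S → K := ⟨⟨fun y => y.2 0, fun _ _ => rfl⟩, fun _ _ => rfl⟩
  obtain ⟨G, hG⟩ : ∃ G : Matrix S S K, ∀ a, G *ᵥ a = (v (j a)).2 0 :=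
    ⟨LinearMap.toMatrix' (q ∘ₗ v ∘ₗ j), fun a => by
      rw [← toLin'_apply, toLin'_toMatrix']; rfl⟩
  have e2 : ∀ y, (v y).2 = y.2 * Gᵀ := fun y => by
    ext i a
    have e : io 1 (single 0 i 1) 0 y = j (y.2 i) := J_ext (by simp [io_1, j]) (by
      ext i' a
      fin_cases i' <;> simp [io_2, j])
    have := congrFun (congrArg (fun y : J K => y.2 0) (c (single 0 i 1) y)) a
    simp only [e, ← hG, io_2, Units.val_one, transpose_one, Matrix.mul_one,
      single_mul_apply_same, one_mul] at this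
    rw [← this, mul_apply, mulVec, dotProduct]
    simp only [transpose_apply, mul_comm]
  have e0 : ∀ y, (v y).1.1 = (v (jm y.1.1 y.1.2 0)).1.1 := fun y => by
    have e : y = jm y.1.1 y.1.2 0 + io 1 1 0 y := J_ext (by simp [io_1]) (by simp [io_2])
    conv_lhs => rw [e, map_add, add_1, c, io_1, zero_smul, add_zero]
  have e1 : ∀ y w, (v (jm y.1.1 y.1.2 w)).1.1 = (v y).1.1 := fun y w =>
    (e0 _).trans (e0 y).symm
  have e3 : ∀ y (w : Matrix (Fin 2) S K), pf (v y).1.1 + h.1.det * (w * (Gᵀ * (v y).1.1 * G) * wᵀ) 0 1 =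
      ν * (pf y.1.1 + (w * y.1.1 * wᵀ) 0 1) := fun y w => by
    have := hν (jm y.1.1 y.1.2 w)
    rw [hv, Module.End.mul_apply, N_io', N, mx_eq, mx_eq, e1, e2] at this
    simpa [Matrix.mul_assoc] using this
  have e4 : ∀ y, pf (v y).1.1 = ν * pf y.1.1 := fun y => by simpa using e3 y 0
  have hd : h.1.det ≠ 0 := h.det_ne_zero
  have e5 : ∀ y, Gᵀ * (v y).1.1 * G = (ν / h.1.det) • y.1.1 := fun y => by
    ext a b
    let w : Matrix (Fin 2) S K := of ![Pi.single a 1, Pi.single b 1]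
    have e : ∀ M : Matrix S S K, (w * M * wᵀ) 0 1 = M a b := fun M => by
      simp [w, mul_apply, Pi.single_apply]
    have := e3 y w
    rw [e, e, e4] at this
    rw [Matrix.smul_apply, smul_eq_mul]
    field_simp
    linear_combination this
  obtain ⟨g, rfl⟩ : IsUnit G := mulVec_injective_iff_isUnit.1 ((injective_iff_map_eq_zero
    G.mulVecLin).2 fun a e => by
      have h2 : v (j a) = 0 := J_ext ((e0 _).trans (congrArg (·.1.1) (map_zero v))) (by
        rw [e2]
        ext i b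
        fin_cases i
        · simpa [j, mul_apply, mulVec, dotProduct, mul_comm] using congrFun e b
        · simp [j, mul_apply])
      have h3 : j a = 0 := by
        rw [← Module.End.one_apply (R := K) (j a), ← u.inv_mul, hv, Module.End.mul_apply,
          Module.End.mul_apply, h2, map_zero, map_zero]
      exact congrArg (fun y : J K => y.2 0) h3)
  have e6 : u.1 = io g h.1 (ν / h.1.det) := LinearMap.ext fun y => J_ext (by
    rw [io_1, ← Matrix.smul_mul, ← Matrix.mul_smul, ← e5, hv, Module.End.mul_apply, io_1]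
    simp [← Matrix.mul_assoc, ← transpose_mul]) (by
    rw [hv, Module.End.mul_apply, io_2, io_2, e2]
    simp [Matrix.mul_assoc])
  refine ⟨g, _, ?_, e6⟩
  obtain ⟨y, h2, h3⟩ : ∃ y : J K, N y = 1 ∧ y.2 = 0 :=
    ⟨co.symm fun e => if e.1 = 1 ∧ e.2.1 = e.2.2 then 1 else 0, by
      rw [← cub_co, LinearEquiv.apply_symm_apply]
      simp [P011L.cub, det_fin_three, trace_fin_three, mul_apply, Fin.sum_univ_three], by
        ext i ⟨a, b⟩
        rw [show ∀ x : I → K, (co.symm x).2 i (a, b) = wmF x i a b from fun _ => rfl]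
        fin_cases i <;> fin_cases a <;> fin_cases b <;> simp [wmF]⟩
  have := hν y
  rw [e6, N_io', h2, h3] at this
  rw [N, h3] at h2
  have h4 : g⁻¹.1.det * g.1.det = 1 := by rw [← det_mul, Units.inv_mul, det_one]
  simp only [show ∀ i, (0 : Matrix (Fin 2) S K) i = 0 from fun _ => rfl, zero_dotProduct,
    add_zero] at this h2
  rw [h2] at this
  field_simp at this ⊢
  linear_combination g.1.det * this - ν ^ 2 * h4

theorem single01 : (single 0 1 1 : Matrix (Fin 2) (Fin 2) K) = !![0, 1; 0, 0] := by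
  ext i j
  fin_cases i <;> fin_cases j <;> simp

theorem single10 : (single 1 0 1 : Matrix (Fin 2) (Fin 2) K) = !![0, 0; 1, 0] := by
  ext i j
  fin_cases i <;> fin_cases j <;> simp

theorem cen : CEN := fun K _ _ _ u h hu a b =>
  have ⟨g, l, c, d⟩ := cen' hu h (single01 (K := K) ▸ Ad_eq.2 a) (single10 (K := K) ▸ Ad_eq.2 b)
  ⟨g, l, d, c⟩

end Vale.Agent.P011LM
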