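import Vale.Agent.P011LN.Gen
import Vale.Agent.P011LT.Basic

/-!
The weights of the module of dimension 27 of `E₆`, and the polarisation of the cubic form.
-/

set_option linter.all false
set_option maxSynthPendingDepth 3

open Matrix Function

namespace Vale.Agent.P011LM

open Vale.Agent.P011L Vale.Agent.P011LA Vale.Agent.P011LN

abbrev J := Fin 3 × Fin 3 × Fin 3

abbrev Z6 := Fin 6 → ℤ

def lt : Fin 6 → Fin 3 := ![0, 0, 0, 1, 1, 2]

def ix : Fin 6 → Fin 3 := ![0, 1, 0, 1, 0, 1]

def uu (r : Fin 6) (k : Fin 3) : ℤ := if k = ix r then 1 else if k = ix r + 1 then -1 else 0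

def sw (r : Fin 6) (k : Fin 3) : Fin 3 :=
  if k = ix r then ix r + 1 else if k = ix r + 1 then ix r else k

/-- the weights -/
def w (a : J) (r : Fin 6) : ℤ :=
  if r = 2 then (if a.2.1 = 2 then 1 else 0) - (if a.2.2 = 2 then 1 else 0)
  else (if a.1 = lt r then uu r a.2.1 else 0) - if a.1 + 1 = lt r then uu r a.2.2 else 0

/-- the simple reflections on the basis -/
def ps (r : Fin 6) (a : J) : J :=
  if r = 2 then (if a.2.1 = 2 ∧ a.2.2 ≠ 2 then (a.1 + 1, 1 - a.2.2, 2)
    else if a.2.2 = 2 ∧ a.2.1 ≠ 2 then (a.1 + 2, 2, 1 - a.2.1) else a)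
  else (a.1, if a.1 = lt r then sw r a.2.1 else a.2.1, if a.1 + 1 = lt r then sw r a.2.2 else a.2.2)

/-- the coefficients of the simple root elements -/
def cs (r : Fin 6) (a : J) : ℤ :=
  if w a r = 1 then (if r = 2 then (if a.2.2 = 0 then 1 else -1) else if a.1 = lt r then 1 else -1)
  else 0

/-- the simple roots -/
def al : Fin 6 → Z6 := ![![2, -1, 0, 0, 0, 0], ![-1, 2, -1, 0, 0, 0], ![0, -1, 2, -1, 0, -1],
  ![0, 0, -1, 2, -1, 0], ![0, 0, 0, -1, 2, 0], ![0, 0, -1, 0, 0, 2]]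

def bm : Fin 6 → Z6 := ![![4, 5, 6, 4, 2, 3], ![5, 10, 12, 8, 4, 6], ![6, 12, 18, 12, 6, 9],
  ![4, 8, 12, 10, 5, 6], ![2, 4, 6, 5, 4, 3], ![3, 6, 9, 6, 3, 6]]

/-- three times the scalar product -/
def B (y z : Z6) : ℤ := ∑ r, ∑ q, y r * bm r q * z q

/-- the simple reflections -/
def sr (r : Fin 6) (y : Z6) : Z6 := y - y r • al r

def th : Z6 := ![0, 0, 0, 0, 0, 1]

def top : J := (1, 0, 0)

def low : J := (2, 0, 0)

def mid : J := (0, 0, 0)

/-- twice the height -/
def ht : Z6 →+ ℤ where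
  toFun y := ∑ r, ![16, 30, 42, 30, 16, 22] r * y r
  map_zero' := by simp
  map_add' y z := by simp [mul_add, Finset.sum_add_distrib]

theorem ht_al : ∀ r, ht (al r) = 2 := by decide +kernel

theorem al_self : ∀ r, al r r = 2 := by decide +kernel

theorem w_inj : Injective w := fun a b => by revert a b; decide +kernel

theorem tab : ∀ r a, ps r (ps r a) = a ∧ w (ps r a) = sr r (w a) ∧ (cs r a ≠ 0 → w a r = 1) ∧
    (w a r = 1 → cs r a * cs r a = 1) ∧ -1 ≤ w a r ∧ w a r ≤ 1 ∧
    (a ≠ ps r a → cs r a * cs r a + cs r (ps r a) * cs r (ps r a) = 1) ∧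
    cs r a * cs r a - cs r (ps r a) * cs r (ps r a) = w a r ∧ cs r a * cs r (ps r a) = 0 ∧
    cs r a * cs r a * cs r a = cs r a := by
  decide +kernel

theorem tab2 : ∀ r q a, r ≠ q → cs r a * cs q (ps q (ps r a)) = cs q (ps q a) * cs r (ps q a) ∧
    (cs r a * cs q (ps q (ps r a)) ≠ 0 → ps q (ps r a) = ps r (ps q a)) := by
  decide +kernel

theorem dom1 : ∀ a, (∀ r, 0 ≤ w a r) → a = top := by decide +kernel

theorem dom2 : ∀ a b, (∀ r, 0 ≤ (w a - w b) r) → w a - w b = th ∨ w a - w b = 0 ∨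
    w a - w b = w top - w low := by decide +kernel

theorem pl1 : ∀ a b, w a - w b = w top - w low → a = top ∧ b = low := by decide +kernel

theorem pl2 : ∀ c, w top + w low + w c = 0 → c = mid := by decide +kernel

theorem pl3 : ∀ a b, (w a - w b = th → ∀ c, w a + w b + w c ≠ 0) ∧ w a + w a + w b ≠ 0 := by
  decide +kernel

theorem sr_sr (r : Fin 6) (y : Z6) : sr r (sr r y) = y := by
  simp only [sr, Pi.sub_apply, Pi.smul_apply, al_self, smul_eq_mul]
  module

theorem sr_sub (r : Fin 6) (y z : Z6) : sr r (y - z) = sr r y - sr r z := by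
  simp only [sr, Pi.sub_apply]
  module

theorem sr_add (r : Fin 6) (y z : Z6) : sr r (y + z) = sr r y + sr r z := by
  simp only [sr, Pi.add_apply]
  module

theorem B_sr (r : Fin 6) (y z : Z6) :
    B (sr r y) z = B y z - 3 * y r * z r ∧ B y (sr r z) = B y z - 3 * y r * z r := by
  fin_cases r <;> simp [B, sr, bm, al, Fin.sum_univ_six] <;> constructor <;> ring

theorem B_sr2 (r : Fin 6) (y : Z6) : B (sr r y) (sr r y) = B y y := by
  rw [(B_sr _ _ _).1, (B_sr _ _ _).2]
  simp only [sr, Pi.sub_apply, Pi.smul_apply, al_self, smul_eq_mul]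
  ring

theorem dom_ind {I : Type} [Finite I] (f : I → Z6) (q : Fin 6 → I → I)
    (hq : ∀ r i, f (q r i) = sr r (f i)) (P : I → Prop) (h0 : ∀ i, (∀ r, 0 ≤ f i r) → P i)
    (h1 : ∀ r i, f i r < 0 → P (q r i) → P i) (i : I) : P i := by
  by_contra h
  obtain ⟨i, hi, hm⟩ := Set.exists_max_image {i | ¬P i} (fun i => ht (f i)) (Set.toFinite _) ⟨i, h⟩
  refine hi (h0 i fun r => not_lt.1 fun a => hi (h1 r i a (by_contra fun b => ?_)))
  have := hm _ b
  simp only [hq, sr, map_sub, map_zsmul, ht_al, smul_eq_mul] at this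
  omega

theorem one_ind (P : J → Prop) (h0 : P top) (h1 : ∀ r a, w a r < 0 → P (ps r a) → P a) (a : J) :
    P a := dom_ind w ps (fun r a => (tab r a).2.1) P (fun a h => dom1 a h ▸ h0) h1 a

theorem pair_ind (P : Z6 → Prop) (hs : ∀ r γ, P γ → P (sr r γ)) (h1 : P th)
    (h2 : P (w top - w low)) (a b : J) : a ≠ b → P (w a - w b) :=
  dom_ind (fun e : J × J => w e.1 - w e.2) (fun r e => (ps r e.1, ps r e.2))
    (fun r e => by rw [sr_sub, (tab r _).2.1, (tab r _).2.1]) (fun e => e.1 ≠ e.2 → P (w e.1 - w e.2))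
    (fun e h a => (dom2 _ _ h).elim (fun b => b ▸ h1) fun b =>
      b.elim (fun b => absurd (w_inj (sub_eq_zero.1 b)) a) fun b => b ▸ h2)
    (fun r e _ h a => by
      have := hs r _ (h fun b => a (by rw [← (tab r e.1).1, show ps r e.1 = _ from b, (tab r _).1]))
      rwa [(tab r _).2.1, (tab r _).2.1, ← sr_sub, sr_sr] at this) (a, b)

theorem th_of (P : Z6 → Prop) (hs : ∀ r γ, P γ → P (sr r γ)) (h : P (al 5)) : P th := by
  rw [show th = [5, 2, 3, 4, 1, 2, 3, 0, 1, 2].foldr sr (al 5) by decide +kernel]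
  repeat apply hs
  exact h

variable {K : Type} [Field K]

/-- monomial matrices -/
def mono (p : J → J) (c : J → ℤ) : Matrix J J K := of fun a b => if b = p a then c a else 0

theorem mono_mul (p : J → J) (c : J → ℤ) (M : Matrix J J K) (a b : J) :
    ((mono p c : Matrix J J K) * M) a b = c a * M (p a) b := by simp [mono, mul_apply]

theorem mono_mulVec (p : J → J) (c : J → ℤ) (x : J → K) (a : J) :
    (mono p c *ᵥ x) a = c a * x (p a) := by simp [mono, mulVec, dotProduct]

theorem mono_mono (p q : J → J) (c d : J → ℤ) :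
    (mono p c * mono q d : Matrix J J K) = mono (q ∘ p) fun a => c a * d (p a) := by
  ext a b
  rw [mono_mul]
  simp [mono]

theorem mono_congr {p q : J → J} {c d : J → ℤ} (h : ∀ a, c a = d a ∧ (c a ≠ 0 → p a = q a)) :
    (mono p c : Matrix J J K) = mono q d := by
  ext a b
  by_cases e : c a = 0
  · simp [mono, ← (h a).1, e]
  · simp [mono, ← (h a).1, (h a).2 e]

theorem cub_eq (x : J → K) : cub x = ∑ l, (x (l, 0, 0) * x (l, 1, 1) * x (l, 2, 2) -
    x (l, 0, 0) * x (l, 1, 2) * x (l, 2, 1) - x (l, 0, 1) * x (l, 1, 0) * x (l, 2, 2) +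
    x (l, 0, 1) * x (l, 1, 2) * x (l, 2, 0) + x (l, 0, 2) * x (l, 1, 0) * x (l, 2, 1) -
    x (l, 0, 2) * x (l, 1, 1) * x (l, 2, 0)) -
    ∑ i, ∑ k, ∑ j, x (0, i, j) * x (1, j, k) * x (2, k, i) := by
  simp only [cub, det_fin_three, trace, diag, mul_apply, of_apply, Finset.sum_mul]

theorem cub_smul (k : K) (x : J → K) : cub (k • x) = k ^ 3 * cub x := by
  simp only [cub_eq, Fin.sum_univ_three, Pi.smul_apply, smul_eq_mul]
  ring

abbrev T3 (K : Type) [Field K] := (J → K) →ₗ[K] (J → K) →ₗ[K] (J → K) →ₗ[K] K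

variable (K) in
def m3 (a b c : J) : T3 K :=
  (LinearMap.proj a).smulRight ((LinearMap.proj b).smulRight (LinearMap.proj c))

variable (K) in
def s3 (a b c : J) : T3 K :=
  m3 K a b c + m3 K a c b + m3 K b a c + m3 K b c a + m3 K c a b + m3 K c b a

/-- the polarisation of the cubic form -/
def tri : T3 K := ∑ l, (s3 K (l, 0, 0) (l, 1, 1) (l, 2, 2) - s3 K (l, 0, 0) (l, 1, 2) (l, 2, 1) -
    s3 K (l, 0, 1) (l, 1, 0) (l, 2, 2) + s3 K (l, 0, 1) (l, 1, 2) (l, 2, 0) +
    s3 K (l, 0, 2) (l, 1, 0) (l, 2, 1) - s3 K (l, 0, 2) (l, 1, 1) (l, 2, 0)) -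
    ∑ i, ∑ k, ∑ j, s3 K (0, i, j) (1, j, k) (2, k, i)

theorem s3_pol (a b c : J) (x y z : J → K) : s3 K a b c x y z =
    (x + y + z) a * (x + y + z) b * (x + y + z) c - (x + y) a * (x + y) b * (x + y) c -
    (x + z) a * (x + z) b * (x + z) c - (y + z) a * (y + z) b * (y + z) c + x a * x b * x c +
    y a * y b * y c + z a * z b * z c := by
  simp only [s3, m3, LinearMap.add_apply, LinearMap.smulRight_apply, LinearMap.smul_apply,
    LinearMap.proj_apply, smul_eq_mul, Pi.add_apply]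
  ring

theorem tri_pol (x y z : J → K) : tri x y z = cub (x + y + z) - cub (x + y) - cub (x + z) -
    cub (y + z) + cub x + cub y + cub z := by
  simp only [tri, LinearMap.add_apply, LinearMap.sub_apply, LinearMap.sum_apply, s3_pol, cub_eq,
    Finset.sum_sub_distrib, Finset.sum_add_distrib]
  ring

theorem tri_self (x : J → K) : tri x x x = 6 * cub x := by
  rw [tri_pol, show x + x + x = (3 : K) • x by module, ← two_smul K x, cub_smul, cub_smul]
  ring

theorem tri_12 (x y z : J → K) : tri x y z = tri y x z := by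
  rw [tri_pol, tri_pol, add_comm x y]
  ring

theorem tri_23 (x y z : J → K) : tri x y z = tri x z y := by
  rw [tri_pol, tri_pol, add_comm z y, add_right_comm x y]
  ring

theorem cub_val : cub (Pi.single top 1 + Pi.single low 1 + Pi.single mid 1 : J → K) = -1 := by
  simp [cub_eq, Fin.sum_univ_three, top, low, mid, Pi.single_apply]

theorem tri_val : tri (Pi.single top 1) (Pi.single low 1) (Pi.single mid 1) = (-1 : K) := by
  rw [tri_pol, cub_val]
  simp [cub_eq, Fin.sum_univ_three, top, low, mid, Pi.single_apply]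

theorem tri_inv {g : Matrix J J K} {k : K} (h : ∀ x, cub (g *ᵥ x) = k * cub x) (x y z : J → K) :
    tri (g *ᵥ x) (g *ᵥ y) (g *ᵥ z) = k * tri x y z := by
  simp only [tri_pol, ← mulVec_add, h]
  ring

theorem cub_cs (r : Fin 6) (s : K) (x : J → K) :
    cub ((1 + s • mono (ps r) (cs r)) *ᵥ x) = cub x := by
  simp only [cub_eq, add_mulVec, one_mulVec, smul_mulVec, Pi.add_apply, Pi.smul_apply, mono_mulVec,
    Fin.sum_univ_three]
  fin_cases r <;> simp [cs, ps, w, lt, ix, uu, sw] <;> ring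

theorem cub_ch (t : Fin 6 → Kˣ) (x : J → K) :
    cub (diagonal (fun a => ch (w a) t) *ᵥ x) = cub x := by
  have key : ∀ a b c, w a + w b + w c = 0 →
      ch (w a) t * x a * (ch (w b) t * x b) * (ch (w c) t * x c) = x a * x b * x c := fun a b c h => by
    have := ch_zero t
    rw [← h, ch_add, ch_add] at this
    linear_combination (x a * x b * x c) * this
  simp only [cub_eq, mulVec_diagonal, Fin.sum_univ_three]
  simp (disch := decide +kernel) only [key]

end Vale.Agent.P011LM
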