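import Vale.Agent.P011LM.P3
import Vale.Agent.P011LS.Geo

/-!
The elements of degree two.
-/

set_option linter.all false

open Matrix

namespace Vale.Agent.P011LM

open P011L P011LN P011LE

variable {K : Type} [Field K] [CharZero K] {X : Matrix I I K}

theorem T_eq (x y z : P011LE.J K) : T x y z = tri (co x) (co y) (co z) := by
  simp only [pol, tri_pol, ← map_add, cub_co]

theorem lie_g0 (h : Lie (E X)) : X ∈ g0 K := ⟨fun x y z => by
  simpa only [T_eq, co_E, LinearEquiv.apply_symm_apply] using h (co.symm x) (co.symm y) (co.symm z)⟩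

theorem dg2 {Y : R K} (h : Lie Y) (d : Dg 2 Y) : ∃ c : K, Y = c • e0 := by
  obtain ⟨X, rfl⟩ := E.surjective Y
  rw [Dg, h0_eq, ← map_mul, ← map_mul, ← map_sub, ← map_smul] at d
  have hs : Sh w (al 0) X := fun a b e => by_contra fun h1 => by
    have h2 := congrFun (congrFun (E.injective d) a) b
    rw [Matrix.sub_apply, hh, diagonal_mul, mul_diagonal, mul_comm (X a b), ← sub_mul,
      ← Int.cast_sub] at h2
    have h3 : w a 0 - w b 0 = 2 := Int.cast_injective (mul_right_cancel₀ e h2)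
    have h4 := (by decide +kernel : ∀ a b, w a 0 - w b 0 = 2 → w a = w b + al 0 ∨
      B (w a - w b) (w a - w b) ≠ 6) a b h3
    have h5 := zero_of (fun e => by simp [sub_eq_zero.1 e] at h3) (h4.resolve_left h1)
      (cp_g0 (lie_g0 h) _) fun a b e => by_contra fun h => e (if_neg h)
    exact e (by simpa [cp] using congrFun (congrFun h5 a) b)
  obtain ⟨c, hc⟩ := od 0 (lie_g0 h) hs
  exact ⟨c, by rw [hc, map_smul, e0_eq]⟩

theorem e0_rel : (e0 : R K) * e0 = 0 ∧ (f0 : R K) * f0 = 0 ∧ (e0 : R K) * f0 * e0 = e0 ∧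
    (f0 : R K) * e0 * f0 = f0 ∧ (h0 : R K) = e0 * f0 - f0 * e0 := by
  simp only [e0_eq, f0_eq, h0_eq, ← map_mul, ← map_sub, (ee_nl 0).1, (ff_nl 0).1, efe, fef, map_zero,
    ← hh_eq, and_self]

theorem tr_ef : tr ((e0 : R K) * f0) = 6 := by
  rw [e0_eq, f0_eq, ← map_mul, tr_def, AlgEquiv.symm_apply_apply, ee_ff, trace_diagonal,
    ← Int.cast_sum, (by decide +kernel : ∑ a, cs 0 a * cs 0 a = 6), Int.cast_ofNat]

theorem e0_lie : Lie (e0 : R K) := fun x y z => by
  simpa only [T_eq, e0_eq, co_E] using ((ee_nl 0).g0 (K := K)).1 (co x) (co y) (co z)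

theorem g2_aux {A : Type} [Ring A] {e f : A} (y : A) (a1 : e * e = 0) (a3 : e * f * e = e) :
    (e * y - y * e) * e - e * (e * y - y * e) = e * y * e + e * y * e ∧
      (e * f - f * e) * (e * y * e) - e * y * e * (e * f - f * e) = e * y * e + e * y * e ∧
      e * f * (e * y) = e * y := by
  have b1 : ∀ x, e * (e * x) = 0 := fun x => by rw [← mul_assoc, a1, zero_mul]
  have b3 : ∀ x, e * (f * (e * x)) = e * x := fun x => by rw [← mul_assoc, ← mul_assoc, a3]
  rw [mul_assoc] at a3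
  simp [mul_sub, sub_mul, mul_assoc, a1, b1, b3, a3]

theorem g2 : P011LS.G2 := fun K _ _ y hy => by
  obtain ⟨a1, a2, a3, a4, a5⟩ := e0_rel (K := K)
  obtain ⟨h2, h3, h4⟩ := g2_aux y a1 a3
  have h1 := (e0_lie.br hy.1).br e0_lie
  rw [h2, ← two_smul K] at h1
  obtain ⟨c, hc⟩ := dg2 (Y := e0 * y * e0) (fun x y z => by
    have := h1 x y z
    simp only [LinearMap.smul_apply, map_smul, smul_eq_mul] at this
    linear_combination this / 2) (by rw [Dg, a5, h3, Int.cast_ofNat, two_smul])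
  have h5 := congrArg (fun Z => tr (Z * f0)) hc
  simp only [smul_mul_assoc, map_smul, tr_ef, smul_eq_mul] at h5
  rw [mul_assoc, tr_comm, h4] at h5
  rw [hc, h5, mul_div_cancel_right₀ _ (by norm_num)]

end Vale.Agent.P011LM
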