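import Vale.Agent.P011LM.Dat
import Vale.Agent.P011LA.A1
import Mathlib.Algebra.CharZero.Infinite

/-!
The torus, the simple root subgroups and the invariant trilinear form of `E₆`.
-/

set_option linter.all false
set_option maxSynthPendingDepth 3

open Matrix Function

namespace Vale.Agent.P011LM

open Vale.Agent.P011L Vale.Agent.P011LA Vale.Agent.P011LN Vale.Agent.P011LT

variable {K : Type} [Field K] {X Y : Matrix J J K} {r : Fin 6} {γ : Z6}

/-- the matrices of square zero whose one-parameter groups preserve the cubic form -/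
def Nl (X : Matrix J J K) : Prop := X * X = 0 ∧ ∀ (s : K) x, cub ((1 + s • X) *ᵥ x) = cub x

theorem one_add_mul (h : X * X = 0) (s t : K) :
    (1 + s • X) * (1 + t • X) = 1 + (s + t) • X := by
  simp only [mul_add, add_mul, one_mul, mul_one, smul_mul_assoc, mul_smul_comm, h, smul_zero,
    add_smul, smul_add]
  abel

/-- the one-parameter group -/
def Nl.u (h : Nl X) (s : K) : SE K :=
  ⟨⟨1 + s • X, 1 + (-s) • X, by rw [one_add_mul h.1]; simp, by rw [one_add_mul h.1]; simp⟩,
    mem_SE.2 (h.2 s)⟩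

theorem ext2 {g h : SE K} (e : g.1.1 = h.1.1) : g = h := Subtype.ext (Units.ext e)

theorem Nl.u_val (h : Nl X) (s : K) : (h.u s).1.1 = 1 + s • X := rfl

theorem Nl.u_add (h : Nl X) (s t : K) : h.u (s + t) = h.u s * h.u t :=
  ext2 (one_add_mul h.1 s t).symm

theorem Nl.u_zero (h : Nl X) : h.u 0 = 1 := ext2 (by simp [h.u_val])

theorem Nl.u_inv (h : Nl X) (s : K) : (h.u s)⁻¹ = h.u (-s) := ext2 rfl

/-- conjugation -/
def cj (g : SE K) : Matrix J J K →ₗ[K] Matrix J J K := .mulLeftRight K (g.1.1, (g⁻¹).1.1)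

theorem cj_apply (g : SE K) (X : Matrix J J K) : cj g X = g.1.1 * X * (g⁻¹).1.1 := rfl

theorem cj_cj (g : SE K) (X : Matrix J J K) : cj g⁻¹ (cj g X) = X := by
  simp [cj_apply, mul_assoc]

theorem cj_mul (g h : SE K) (X : Matrix J J K) : cj (g * h) X = cj g (cj h X) := by
  simp only [cj_apply, _root_.mul_inv_rev, Subgroup.coe_mul, Units.val_mul, mul_assoc]

theorem cj_u (h : Nl X) (g : SE K) (s : K) : (g * h.u s * g⁻¹).1.1 = 1 + s • cj g X := by
  simp [cj_apply, h.u_val, mul_add, add_mul]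

theorem Nl.cj (h : Nl X) (g : SE K) : Nl (cj g X) :=
  ⟨by simp [cj_apply, mul_assoc, ← mul_assoc X, h.1], fun s => cj_u h g s ▸ mem_SE.1 (Subtype.prop _)⟩

theorem Nl.u_cj (h : Nl X) (g : SE K) (s : K) : (h.cj g).u s = g * h.u s * g⁻¹ :=
  ext2 (cj_u h g s).symm

/-- the simple root elements -/
def ee (r : Fin 6) : Matrix J J K := mono (ps r) (cs r)

def ff (r : Fin 6) : Matrix J J K := mono (ps r) fun a => cs r (ps r a)

def hh (r : Fin 6) : Matrix J J K := diagonal fun a => w a r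

theorem mono_ne {p : J → J} {c : J → ℤ} {a b : J} (h : (mono p c : Matrix J J K) a b ≠ 0) :
    b = p a ∧ c a ≠ 0 := by
  by_contra e
  exact h (by simp only [mono, of_apply]; split_ifs <;> simp_all)

theorem ee_sh (r : Fin 6) : Sh w (al r) (ee r : Matrix J J K) := fun a b h => by
  rw [(mono_ne h).1, (tab r a).2.1, sr, (tab r a).2.2.1 (mono_ne h).2, one_smul, sub_add_cancel]

theorem ff_sh (r : Fin 6) : Sh w (-al r) (ff r : Matrix J J K) := fun a b h => by
  obtain ⟨rfl, e⟩ := mono_ne h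
  rw [← sub_eq_add_neg, ← one_smul ℤ (al r), ← (tab r _).2.2.1 e, ← sr, ← (tab r _).2.1, (tab r a).1]

theorem mono_dg {p : J → J} (h : ∀ a, p a = a) (c : J → ℤ) :
    (mono p c : Matrix J J K) = diagonal fun a => (c a : K) := by
  ext a b
  simp [mono, h, diagonal_apply, eq_comm]

theorem ee_ff (r : Fin 6) :
    (ee r : Matrix J J K) * (ff r : Matrix J J K) = diagonal fun a => ((cs r a * cs r a : ℤ) : K) := by
  rw [ee, ff, mono_mono, mono_dg (p := ps r ∘ ps r) fun a => (tab r a).1]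
  simp only [(tab r _).1]

theorem ff_ee (r : Fin 6) :
    (ff r : Matrix J J K) * (ee r : Matrix J J K) =
      diagonal fun a => ((cs r (ps r a) * cs r (ps r a) : ℤ) : K) := by
  rw [ee, ff, mono_mono, mono_dg (p := ps r ∘ ps r) fun a => (tab r a).1]

theorem hh_eq (r : Fin 6) : hh r = (ee r : Matrix J J K) * (ff r : Matrix J J K) -
    (ff r : Matrix J J K) * (ee r : Matrix J J K) := by
  simp only [ee_ff, ff_ee, diagonal_sub, ← Int.cast_sub, (tab r _).2.2.2.2.2.2.2.1, hh]

theorem efe (r : Fin 6) :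
    (ee r : Matrix J J K) * (ff r : Matrix J J K) * (ee r : Matrix J J K) = ee r := by
  simp only [ee, ff, mono_mono]
  exact mono_congr fun a => by simp [(tab r _).1, (tab r _).2.2.2.2.2.2.2.2.2]

theorem fef (r : Fin 6) :
    (ff r : Matrix J J K) * (ee r : Matrix J J K) * (ff r : Matrix J J K) = ff r := by
  simp only [ee, ff, mono_mono]
  exact mono_congr fun a => by simp [(tab r _).1, (tab r _).2.2.2.2.2.2.2.2.2]

theorem ee_cm {r q : Fin 6} (h : r ≠ q) : (ee r : Matrix J J K) * (ff q : Matrix J J K) =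
    (ff q : Matrix J J K) * (ee r : Matrix J J K) := by
  simp only [ee, ff, mono_mono]
  exact mono_congr fun a => tab2 r q a h

theorem ee_tr (r : Fin 6) : (ee r : Matrix J J K)ᵀ = ff r := by
  ext a b
  by_cases h : b = ps r a
  · simp [ee, ff, mono, h, (tab r _).1]
  · have : a ≠ ps r b := fun e => h (by rw [e, (tab r _).1])
    simp [ee, ff, mono, h, this]

theorem ee_nl (r : Fin 6) : Nl (ee r : Matrix J J K) := by
  refine ⟨?_, cub_cs r⟩
  simp [ee, mono_mono, mono_dg (p := ps r ∘ ps r) fun a => (tab r a).1,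
    ← Int.cast_mul, (tab r _).2.2.2.2.2.2.2.2.1]

theorem ff_nl (r : Fin 6) : Nl (ff r : Matrix J J K) := by
  refine ⟨by rw [← ee_tr, ← transpose_mul, (ee_nl r).1, transpose_zero], fun s x => ?_⟩
  simp only [ff, cub_eq, add_mulVec, one_mulVec, smul_mulVec, Pi.add_apply, Pi.smul_apply,
    mono_mulVec, Fin.sum_univ_three]
  fin_cases r <;> simp [cs, ps, w, lt, ix, uu, sw] <;> ring

theorem ee_ne (r : Fin 6) : (ee r : Matrix J J K) ≠ 0 := fun h => by
  obtain ⟨a, e⟩ : ∃ a, cs r a * cs r a = 1 := (by decide +kernel : ∀ r, ∃ a, cs r a * cs r a = 1) r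
  have := congrFun (congrFun (ee_ff (K := K) r) a) a
  simp [h, e, -Int.cast_mul] at this

/-- the matrix is monomial, and permutes the basis as a simple reflection -/
def Mn (r : Fin 6) (g : Matrix J J K) : Prop := ∀ a b, g a b ≠ 0 → b = ps r a

theorem Mn.single (h : Mn r X) (a : J) :
    X *ᵥ Pi.single a 1 = X (ps r a) a • Pi.single (ps r a) 1 := funext fun b => by
  by_cases e : b = ps r a
  · simp [e]
  · simpa [e] using by_contra fun h1 => e (by rw [h b a h1, (tab r _).1])

/-- the representatives of the simple reflections -/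
def nn (r : Fin 6) (c : K) : SE K := (ee_nl r).u c * (ff_nl r).u (-c) * (ee_nl r).u c

theorem nn_inv (r : Fin 6) (c : K) : (nn r c)⁻¹ = nn r (-c) := by
  simp only [nn, _root_.mul_inv_rev, Nl.u_inv, mul_assoc]

theorem nn_mn (r : Fin 6) {c : K} (hc : c * c = 1) : Mn r (nn r c).1.1 := fun a b h => by
  by_contra e
  refine h ?_
  simp only [nn, Subgroup.coe_mul, Units.val_mul, Nl.u_val]
  rw [w_eq (ee_nl r).1 (efe r) hc, ee_ff, ff_ee]
  by_cases h1 : a = b
  · subst h1
    have := congrArg (Int.cast : ℤ → K) ((tab r a).2.2.2.2.2.2.1 e)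
    simp [ee, ff, mono, e] at this ⊢
    linear_combination -this
  · simp [ee, ff, mono, e, h1]

theorem sh_cj (h : Sh w (sr r γ) X) : Sh w γ (cj (nn r 1) X) := fun a b e => by
  rw [cj_apply, mul_apply] at e
  obtain ⟨c, -, hc⟩ := Finset.exists_ne_zero_of_sum_ne_zero e
  have h1 := left_ne_zero_of_mul hc
  rw [mul_apply] at h1
  obtain ⟨d, -, hd⟩ := Finset.exists_ne_zero_of_sum_ne_zero h1
  rw [nn_inv] at hc
  have h2 := congrArg (sr r) (h d c (right_ne_zero_of_mul hd))
  rwa [nn_mn r (one_mul 1) a d (left_ne_zero_of_mul hd), (tab r _).2.1, sr_sr, sr_add, sr_sr,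
    ← (tab r _).2.1, ← nn_mn r (by simp) c b (right_ne_zero_of_mul hc)] at h2

/-- the torus -/
def dg : (Fin 6 → Kˣ) →* Matrix J J K where
  toFun t := diagonal fun a => ch (w a) t
  map_one' := by simp
  map_mul' t u := by simp [diagonal_mul_diagonal]

def tor : (Fin 6 → Kˣ) →* SE K := dg.toHomUnits.codRestrict _ fun t => mem_SE.2 fun x => by
  rw [MonoidHom.coe_toHomUnits]
  exact cub_ch t x

theorem tor_val (t : Fin 6 → Kˣ) : (tor t).1.1 = diagonal fun a => ch (w a) t := rfl

theorem Nl.tor (h : Nl X) (hs : Sh w γ X) (t : Fin 6 → Kˣ) (s : K) :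
    tor t * h.u s = h.u (ch γ t * s) * tor t := ext2 (by
  ext a b
  simp only [Subgroup.coe_mul, Units.val_mul, tor_val, Nl.u_val, diagonal_mul, mul_diagonal,
    Matrix.add_apply, Matrix.smul_apply, smul_eq_mul, one_apply]
  by_cases e : X a b = 0
  · rw [e]
    split_ifs with h1 <;> simp [h1]
  · split_ifs with h1
    · have := hs a b e
      rw [h1, left_eq_add] at this
      rw [this, h1, ch_zero]
      ring
    · rw [hs a b e, ch_add]
      ring)

theorem Mn.tor {g : SE K} (h : Mn r g.1.1) (t : Fin 6 → Kˣ) :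
    ∃ u, tor t * g = g * tor u ∧ ∀ μ, ch μ u = ch (sr r μ) t := by
  have e : ∀ μ, ch μ (t * Pi.mulSingle r (Units.mk0 (ch (-al r) t) (ch_ne _ _))) =
      ch (sr r μ) t := fun μ => by
    rw [map_mul, sr, sub_eq_add_neg, ch_add, ch_apply μ (Pi.mulSingle _ _), Finset.prod_eq_single r
      (fun q _ a => by simp [Pi.mulSingle_eq_of_ne a]) (by simp), Pi.mulSingle_eq_same]
    simp [ch_apply, ← Finset.prod_zpow, ← zpow_mul, mul_comm]
  refine ⟨_, ext2 ?_, e⟩
  ext a b
  simp only [Subgroup.coe_mul, Units.val_mul, tor_val, diagonal_mul, mul_diagonal, e]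
  by_cases h1 : g.1.1 a b = 0
  · simp [h1]
  · rw [h a b h1, (tab r _).2.1, sr_sr, mul_comm]

/-- invariance of a trilinear form -/
def Iv (F : T3 K) (g : SE K) : Prop := ∀ x y z, F (g.1.1 *ᵥ x) (g.1.1 *ᵥ y) (g.1.1 *ᵥ z) = F x y z

theorem tri_iv (g : SE K) : Iv tri g := fun x y z =>
  (tri_inv (k := 1) (by simpa using mem_SE.1 g.2) x y z).trans (one_mul _)

theorem t3_ext {F : T3 K} (h : ∀ a b c, F (Pi.single a 1) (Pi.single b 1) (Pi.single c 1) = 0) :
    F = 0 := (Pi.basisFun K J).ext fun a => (Pi.basisFun K J).ext fun b =>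
  (Pi.basisFun K J).ext fun c => by simpa using h a b c

variable [CharZero K]

theorem wt3 {F : T3 K} (hF : ∀ t, Iv F (tor t)) {a b c : J}
    (h : F (Pi.single a 1) (Pi.single b 1) (Pi.single c 1) ≠ 0) : w a + w b + w c = 0 := by
  refine ch_inj (K := K) (MonoidHom.ext fun t => ?_)
  have := hF t (Pi.single a 1) (Pi.single b 1) (Pi.single c 1)
  have e : ∀ a, (tor t).1.1 *ᵥ Pi.single a 1 = ch (w a) t • Pi.single a 1 := fun a => by
    rw [tor_val, diagonal_mulVec_single, ← Pi.single_smul, smul_eq_mul]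
  simp only [e, map_smul, LinearMap.smul_apply, smul_eq_mul] at this
  rw [ch_add, ch_add, ch_zero]
  exact mul_right_cancel₀ h (by linear_combination this)

theorem uniq {F : T3 K} (hF : ∀ t, Iv F (tor t)) (hn : ∀ r, Iv F (nn r 1))
    (h0 : F (Pi.single top 1) (Pi.single low 1) (Pi.single mid 1) = 0) : F = 0 := by
  refine t3_ext fun a b c => by_contra fun h => h ?_
  refine pair_ind (fun γ => ∀ a b c, w a - w b = γ →
    F (Pi.single a 1) (Pi.single b 1) (Pi.single c 1) = 0) (fun r γ h a b c e => ?_)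
    (fun a b c e => by_contra fun h => (pl3 a b).1 e c (wt3 hF h)) (fun a b c e => by_contra fun h => ?_)
    a b (fun e => (pl3 a c).2 (by subst e; exact wt3 hF h)) a b c rfl
  · rw [← hn r]
    simp only [(nn_mn r (one_mul (1 : K))).single, map_smul, LinearMap.smul_apply]
    rw [h _ _ _ (by rw [(tab r _).2.1, (tab r _).2.1, ← sr_sub, e, sr_sr])]
    simp
  · obtain ⟨rfl, rfl⟩ := pl1 a b e
    exact h (pl2 c (wt3 hF h) ▸ h0)

end Vale.Agent.P011LM
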