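import Vale.Agent.P011LM.Grp

/-!
The Lie algebra of the stabiliser of the cubic form is spanned by the conjugates of the simple root
elements.
-/

set_option linter.all false
set_option maxSynthPendingDepth 3

open Matrix Function

namespace Vale.Agent.P011LM

open Vale.Agent.P011L Vale.Agent.P011LA Vale.Agent.P011LN Vale.Agent.P011LT

variable {K : Type} [Field K] {X Y : Matrix J J K} {r : Fin 6} {γ : Z6}

/-- the matrix annihilates the trilinear form -/
structure G0 (X : Matrix J J K) : Prop where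
  eq : ∀ x y z, tri (X *ᵥ x) y z + tri x (X *ᵥ y) z + tri x y (X *ᵥ z) = 0

variable (K) in
/-- the Lie algebra -/
def g0 : Submodule K (Matrix J J K) where
  carrier := {X | G0 X}
  add_mem' {X Y} a b := ⟨fun x y z => by
    simp only [add_mulVec, map_add, LinearMap.add_apply]
    linear_combination a.1 x y z + b.1 x y z⟩
  zero_mem' := ⟨fun x y z => by simp⟩
  smul_mem' c X a := ⟨fun x y z => by
    simp only [smul_mulVec, map_smul, LinearMap.smul_apply, smul_eq_mul]
    linear_combination c * a.1 x y z⟩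

theorem g0_cj (g : SE K) (h : X ∈ g0 K) : cj g X ∈ g0 K := ⟨fun x y z => by
  have := h.1 ((g⁻¹).1.1 *ᵥ x) ((g⁻¹).1.1 *ᵥ y) ((g⁻¹).1.1 *ᵥ z)
  rw [← tri_iv g, ← tri_iv g _ (X *ᵥ _), ← tri_iv g _ _ (X *ᵥ _)] at this
  simpa [cj_apply, mul_assoc] using this⟩

theorem g0_br (h : X ∈ g0 K) (h' : Y ∈ g0 K) : X * Y - Y * X ∈ g0 K := ⟨fun x y z => by
  simp only [sub_mulVec, ← mulVec_mulVec, map_sub, LinearMap.sub_apply]
  linear_combination h.1 (Y *ᵥ x) y z + h.1 x (Y *ᵥ y) z + h.1 x y (Y *ᵥ z) - h'.1 (X *ᵥ x) y z -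
    h'.1 x (X *ᵥ y) z - h'.1 x y (X *ᵥ z)⟩

theorem g0_basis (h : ∀ a b c, tri (X *ᵥ Pi.single a 1) (Pi.single b 1) (Pi.single c 1) +
    tri (Pi.single a 1) (X *ᵥ Pi.single b 1) (Pi.single c 1) +
    tri (Pi.single a 1) (Pi.single b 1) (X *ᵥ Pi.single c 1) = 0) : X ∈ g0 K := ⟨fun x y z => by
  have e : ∀ x y z, (tri ∘ₗ X.mulVecLin + tri.compl₂ X.mulVecLin +
      tri.compr₂ (LinearMap.lcomp K K X.mulVecLin) : T3 K) x y z =
      tri (X *ᵥ x) y z + tri x (X *ᵥ y) z + tri x y (X *ᵥ z) := fun x y z => by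
    simp only [LinearMap.add_apply, LinearMap.comp_apply, LinearMap.compl₂_apply,
      LinearMap.compr₂_apply, LinearMap.lcomp_apply, mulVecLin_apply]
  rw [← e, t3_ext fun a b c => (e _ _ _).trans (h a b c)]
  rfl⟩

theorem Sh.sub (h : Sh w γ X) (h' : Sh w γ Y) : Sh w γ (X - Y) := fun a b e => by_contra fun h1 =>
  e (by rw [Matrix.sub_apply, by_contra fun e => h1 (h a b e), by_contra fun e => h1 (h' a b e), sub_self])

theorem Sh.br {δ : Z6} (h : Sh w γ X) (h' : Sh w δ Y) : Sh w (γ + δ) (X * Y - Y * X) :=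
  Sh.sub (h.mul h') (add_comm γ δ ▸ h'.mul h)

theorem hh_mul (h : Sh w γ X) (q : Fin 6) : hh q * X = X * hh q + (γ q : K) • X := by
  ext a b
  simp only [hh, diagonal_mul, mul_diagonal, Matrix.add_apply, Matrix.smul_apply, smul_eq_mul]
  by_cases e : X a b = 0
  · simp [e]
  · rw [h a b e, Pi.add_apply, Int.cast_add]
    ring

theorem row0 (h : ∀ r, ee r * Y = Y * ee r) (h0 : ∀ b, Y top b = 0) : Y = 0 := by
  ext a b
  revert b
  refine one_ind (fun a => ∀ b, Y a b = 0) h0 (fun r a e h1 b => ?_) a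
  have h2 := congrFun (congrFun (h r) (ps r a)) b
  have h3 : cs r (ps r a) * cs r (ps r a) = 1 := (tab r _).2.2.2.1 (by
    have := (tab r a).2.2.2.2.1
    simp only [(tab r a).2.1, sr, Pi.sub_apply, Pi.smul_apply, al_self, smul_eq_mul]
    omega)
  rw [mul_apply (M := Y), ee, mono_mul, (tab r a).1] at h2
  simp only [h1, zero_mul, Finset.sum_const_zero] at h2
  rw [← one_mul (Y a b), ← Int.cast_one, ← h3, Int.cast_mul, mul_assoc, h2, mul_zero]

theorem prop_of (h : Sh w γ X) (h' : Sh w γ Y) (a : ∀ r, ee r * X = X * ee r)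
    (b : ∀ r, ee r * Y = Y * ee r) (h0 : Y ≠ 0) : ∃ k : K, X = k • Y := by
  obtain ⟨c, hc⟩ : ∃ c, Y top c ≠ 0 := not_forall.1 fun e => h0 (row0 b e)
  refine ⟨X top c / Y top c, sub_eq_zero.1 (row0 (fun r => by simp [mul_sub, sub_mul, a, b])
    fun d => ?_)⟩
  rw [Matrix.sub_apply, Matrix.smul_apply, smul_eq_mul]
  by_cases e : d = c
  · rw [e, div_mul_cancel₀ _ hc, sub_self]
  · have : w top ≠ w d + γ := fun h1 => e (w_inj (add_right_cancel (h1.symm.trans (h' _ _ hc))))
    rw [by_contra fun e => this (h _ _ e), by_contra fun e => this (h' _ _ e), mul_zero, sub_self]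

variable [CharZero K]

theorem Nl.g0 (h : Nl X) : X ∈ g0 K := ⟨fun x y z => by
  have e := fun s => tri_iv (h.u s) x y z
  have e1 := e 1
  have e2 := e (-1)
  have e3 := e 2
  simp only [h.u_val, add_mulVec, one_mulVec, smul_mulVec, map_add, map_smul, LinearMap.add_apply,
    LinearMap.smul_apply, smul_eq_mul] at e1 e2 e3
  linear_combination e1 - (1 / 3) * e2 - (1 / 6) * e3⟩

theorem schur {M : Matrix J J K} (a : ∀ r, ee r * M = M * ee r) (b : ∀ r, ff r * M = M * ff r) :
    ∃ k : K, M = k • 1 := by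
  refine prop_of (γ := 0) (fun c d h => w_inj.eq_iff.2 rfl ▸ funext fun q => ?_)
    (fun c d h => by rw [by_contra fun e => h (one_apply_ne e), add_zero]) a (by simp) one_ne_zero
  have : hh q * M = M * hh q := by
    simp only [hh_eq, sub_mul, mul_sub, mul_assoc, a, b]
    simp only [← mul_assoc, a, b]
  have := congrFun (congrFun this c) d
  rw [hh, diagonal_mul, mul_diagonal, mul_comm] at this
  simpa using (Int.cast_injective (mul_left_cancel₀ h this) : w c q = w d q)

/-- the components -/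
def cp (γ : Z6) (X : Matrix J J K) : Matrix J J K := of fun a b => if w a = w b + γ then X a b else 0

theorem cp_g0 (h : X ∈ g0 K) (γ : Z6) : cp γ X ∈ g0 K := by
  have e : ∀ a b c, tri (cp γ X *ᵥ Pi.single a 1) (Pi.single b 1) (Pi.single c 1) =
      if w a + w b + w c + γ = 0 then tri (X *ᵥ Pi.single a 1) (Pi.single b 1) (Pi.single c 1)
      else 0 := fun a b c => by
    rw [pi_eq_sum_univ' (cp γ X *ᵥ _), pi_eq_sum_univ' (X *ᵥ _)]
    simp only [map_sum, LinearMap.sum_apply, map_smul, LinearMap.smul_apply, smul_eq_mul,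
      mulVec_single_one, col_apply, cp, of_apply]
    rw [← Finset.sum_const_zero (s := (Finset.univ : Finset J)) (M := K), ← Finset.sum_ite_irrel]
    simp only [Finset.sum_const_zero]
    refine Finset.sum_congr rfl fun d _ => ?_
    by_cases h1 : tri (Pi.single d 1) (Pi.single b 1) (Pi.single c 1) = (0 : K)
    · simp [h1]
    · rw [ite_mul, zero_mul]
      refine if_congr ?_ rfl rfl
      rw [← wt3 (fun t => tri_iv _) h1]
      exact ⟨fun e => by rw [e]; abel, fun e => by linear_combination -e⟩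
  refine g0_basis fun a b c => ?_
  have := h.1 (Pi.single a 1) (Pi.single b 1) (Pi.single c 1)
  rw [tri_23 _ _ (_ *ᵥ _), tri_12 _ (_ *ᵥ _), tri_12 _ (_ *ᵥ _)] at this ⊢
  rw [e, e, e, add_comm (w b), add_comm (w c), add_right_comm (w a) (w c)]
  split_ifs
  exacts [this, by simp]

theorem zero_of (h0 : γ ≠ 0) (h6 : B γ γ ≠ 6) (h : X ∈ g0 K) (hs : Sh w γ X) : X = 0 := by
  ext a b
  by_contra e
  obtain rfl : γ = w a - w b := eq_sub_of_add_eq' (hs a b e).symm
  refine (pair_ind (fun γ => (∀ X ∈ g0 K, Sh w γ X → X = 0) ∨ B γ γ = 6)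
    (fun r γ h => h.imp (fun h X a b => ?_) (B_sr2 r γ).trans) (.inr (by decide +kernel))
    (.inl fun X h hs => ?_) a b fun e => h0 (by rw [e, sub_self])).elim
    (fun h1 => e (by rw [h1 X h hs])) h6
  · rw [← cj_cj (nn r 1) X, h _ (g0_cj _ a) (sh_cj b), map_zero]
  · have e : ∀ a b, X a b ≠ 0 → a = top ∧ b = low := fun a b e =>
      pl1 a b (by rw [hs a b e, add_sub_cancel_left])
    have h1 : X *ᵥ Pi.single low 1 = X top low • Pi.single top 1 := funext fun a => by
      by_cases h1 : a = top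
      · simp [h1]
      · simpa [h1] using by_contra fun h2 => h1 (e a _ h2).1
    have h2 : X *ᵥ Pi.single mid 1 = 0 := funext fun a => by
      simpa using by_contra fun h2 => absurd (e a _ h2).2 (by decide)
    have h3 := h.1 (Pi.single low 1) (Pi.single low 1) (Pi.single mid 1)
    simp only [h1, h2, map_smul, LinearMap.smul_apply, map_zero, tri_12 (Pi.single low (1 : K)),
      tri_val, smul_eq_mul] at h3
    ext a b
    by_contra h4
    obtain ⟨rfl, rfl⟩ := e a b h4
    exact h4 (by rw [Matrix.zero_apply]; linear_combination (-1 / 2) * h3)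

theorem one_dim (h0 : γ ≠ 0) (h : X ∈ g0 K) (h' : Y ∈ g0 K) (hs : Sh w γ X) (hs' : Sh w γ Y)
    (hY : Y ≠ 0) : ∃ k : K, X = k • Y := by
  obtain ⟨a, b, e⟩ : ∃ a b, Y a b ≠ 0 := by
    by_contra e
    push Not at e
    exact hY (Matrix.ext e)
  obtain rfl : γ = w a - w b := eq_sub_of_add_eq' (hs' a b e).symm
  have cm : ∀ X ∈ g0 K, Sh w th X → ∀ r, ee r * X = X * ee r := fun X a b r => sub_eq_zero.1
    (zero_of (by revert r; decide +kernel) (by revert r; decide +kernel)
      (g0_br (ee_nl r).g0 a) (Sh.br (ee_sh r) b))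
  refine pair_ind (fun γ => ∀ X ∈ g0 K, ∀ Y ∈ g0 K, Sh w γ X → Sh w γ Y → Y ≠ 0 → ∃ k : K, X = k • Y)
    (fun r γ h X a Y b c d e => ?_) (fun X a Y b c d => prop_of c d (cm X a c) (cm Y b d))
    (fun X a Y b c d e => absurd (zero_of (by decide +kernel) (by decide +kernel) b d) e)
    a b (fun e => h0 (by rw [e, sub_self])) X h Y h' hs hs' hY
  obtain ⟨k, hk⟩ := h _ (g0_cj _ a) _ (g0_cj _ b) (sh_cj c) (sh_cj d) fun h1 =>
    e (by rw [← cj_cj (nn r 1) Y, h1, map_zero])
  exact ⟨k, by rw [← cj_cj (nn r 1) X, hk, map_smul, cj_cj]⟩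

theorem od (r : Fin 6) (a : X ∈ g0 K) (b : Sh w (al r) X) : ∃ k : K, X = k • ee r :=
  one_dim ((by decide +kernel : ∀ r, al r ≠ 0) r) a (ee_nl r).g0 b (ee_sh r) (ee_ne r)

theorem lie0 (a : X ∈ g0 K) (b : Sh w 0 X) : ∃ c : Fin 6 → K, (3 : K) • X = ∑ q, c q • hh q := by
  choose κ hκ using fun r => od r (g0_br a (ee_nl r).g0) (by simpa using Sh.br b (ee_sh r))
  obtain ⟨c, hc⟩ : ∃ c : Fin 6 → K, ∀ r, ∑ q, c q * (al r q : K) = 3 * κ r :=
    ⟨fun q => ∑ r, κ r * bm r q, fun r => by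
      simp only [Finset.sum_mul, mul_assoc]
      rw [Finset.sum_comm]
      simp only [← Finset.mul_sum, ← Int.cast_mul, ← Int.cast_sum,
        (by decide +kernel : ∀ r s, ∑ q, bm s q * al r q = if s = r then 3 else 0)]
      simp [mul_comm]⟩
  have h3 : ∑ q, c q • hh q ∈ g0 K := (g0 K).sum_mem fun q _ => (g0 K).smul_mem _
    (by rw [hh_eq]; exact g0_br (ee_nl q).g0 (ff_nl q).g0)
  obtain ⟨k, hk⟩ := prop_of (γ := 0) (X := (3 : K) • X - ∑ q, c q • hh q) (Y := 1) (fun a d e => by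
    by_contra h4
    have : a ≠ d := fun e => h4 (by rw [e, add_zero])
    simp [by_contra fun e => h4 (b a d e), Matrix.sum_apply, hh, this] at e)
    (fun c d h => by rw [by_contra fun e => h (one_apply_ne e), add_zero]) (fun r => by
      simp only [mul_sub, sub_mul, Finset.mul_sum, Finset.sum_mul, smul_mul_assoc,
        mul_smul_comm, hh_mul (ee_sh r), smul_add, Finset.sum_add_distrib, smul_smul,
        ← Finset.sum_smul, eq_add_of_sub_eq (hκ r), hc]
      abel) (by simp) one_ne_zero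
  have h4 := sub_mem (Submodule.smul_mem _ (3 : K) a) h3
  rw [hk] at h4
  have h5 := h4.1 (Pi.single top 1) (Pi.single low 1) (Pi.single mid 1)
  simp only [smul_mulVec, one_mulVec, map_smul, LinearMap.smul_apply, tri_val, smul_eq_mul] at h5
  rw [show k = 0 by linear_combination (-1 / 3) * h5, zero_smul, sub_eq_zero] at hk
  exact ⟨c, hk⟩

theorem lie {E : Subgroup (SE K)} (hx : ∀ r s, (ee_nl r).u s ∈ E) (hy : ∀ r s, (ff_nl r).u s ∈ E)
    {L : Submodule K (Matrix J J K)} (hL : ∀ g ∈ E, ∀ X ∈ L, cj g X ∈ L) (he : ∀ r, ee r ∈ L)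
    (hf : ∀ r, ff r ∈ L) (h : X ∈ g0 K) : X ∈ L := by
  have st : ∀ r γ, (∀ X ∈ g0 K, Sh w γ X → X ∈ L) → ∀ X ∈ g0 K, Sh w (sr r γ) X → X ∈ L :=
    fun r γ h X a b => by
      rw [← cj_cj (nn r 1) X]
      exact hL _ (inv_mem (mul_mem (mul_mem (hx ..) (hy ..)) (hx ..))) _ (h _ (g0_cj _ a) (sh_cj b))
  have h1 : ∀ q, hh q ∈ L := fun q => by
    have := sub_mem (sub_mem (he q) (hf q)) (hL _ (hy q 1) _ (he q))
    rw [cj_apply, Nl.u_inv, Nl.u_val, Nl.u_val] at this
    simp only [one_smul, neg_smul, mul_add, add_mul, mul_one, one_mul, mul_neg, fef] at this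
    rw [hh_eq]
    refine Eq.mp (congrArg (· ∈ L) ?_) this
    abel
  have h3 : X = ∑ γ ∈ Finset.univ.image fun e : J × J => w e.1 - w e.2, cp γ X := by
    ext a b
    simp only [Matrix.sum_apply, cp, of_apply, ← sub_eq_iff_eq_add', Finset.sum_ite_eq]
    exact (if_pos (Finset.mem_image_of_mem _ (Finset.mem_univ (a, b)))).symm
  rw [h3]
  refine sum_mem fun γ hγ => ?_
  obtain ⟨⟨a, b⟩, -, rfl⟩ := Finset.mem_image.1 hγ
  have h4 : ∀ γ, Sh w γ (cp γ X) := fun γ a b e => by_contra fun h => e (if_neg h)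
  by_cases e : a = b
  · obtain ⟨c, hc⟩ := lie0 (cp_g0 h 0) (h4 0)
    rw [e, sub_self, ← L.smul_mem_iff (three_ne_zero (α := K)), hc]
    exact sum_mem fun q _ => Submodule.smul_mem _ _ (h1 q)
  refine pair_ind _ st (th_of _ st fun X a b => ?_) (fun X a b => ?_) a b e _ (cp_g0 h _) (h4 _)
  · obtain ⟨k, rfl⟩ := od 5 a b
    exact L.smul_mem _ (he 5)
  · rw [zero_of (by decide +kernel) (by decide +kernel) a b]
    exact zero_mem _

end Vale.Agent.P011LM
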