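import Vale.Agent.P011LM.Lie
import Vale.Agent.P011LE.IF

/-!
The centraliser of the elements of nonzero degree.
-/

set_option linter.all false

open Matrix

namespace Vale.Agent.P011LM

open P011L P011LN P011LE

variable {K : Type} [Field K] [CharZero K] {X : Matrix I I K} {γ : Z6}

theorem e0_eq : (e0 : R K) = E (ee 0) := LinearMap.ext fun y => co.injective (by
  have h1 : (e0 y).1.1 = 0 := zero_smul _ _
  have h2 : ∀ a, (e0 y).2 0 a = y.2 1 a ∧ (e0 y).2 1 a = 0 := fun a => by
    rw [e0, io_2, Units.val_one, transpose_one, Matrix.mul_one]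
    simp [mul_apply]
  rw [co_E]
  funext ⟨l, i, j⟩
  rw [ee, mono_mulVec]
  fin_cases l <;> fin_cases i <;> fin_cases j <;>
    simp [co_apply, coF, h1, h2, cs, ps, w, lt, ix, uu, sw])

theorem f0_eq : (f0 : R K) = E (ff 0) := by
  rw [← ee_tr, ← tp_E, ← e0_eq, e0, tp_io, map_one, inv_one, f0]
  congr 1
  ext i j
  fin_cases i <;> fin_cases j <;> rfl

theorem h0_eq : (h0 : R K) = E (hh 0) := by
  rw [hh_eq, map_sub, map_mul, map_mul, ← e0_eq, ← f0_eq, e0, f0, io_mul, io_mul, mul_one, io_sub, h0]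
  congr 1
  · ext i j
    fin_cases i <;> fin_cases j <;> simp
  · simp

theorem peel (r : Fin 6) (hs : Sh w γ X) (h : γ r = -1) (hc : ff r * X = X * ff r) :
    X = ff r * (ee r * X - X * ee r) - (ee r * X - X * ee r) * ff r := by
  have := hh_mul hs r
  rw [h, hh_eq, Int.cast_neg, Int.cast_one, neg_one_smul] at this
  calc X = X * (ee r * ff r - ff r * ee r) - (ee r * ff r - ff r * ee r) * X := by rw [this]; abel
    _ = _ := by
      simp only [mul_sub, sub_mul, mul_assoc, hc]
      simp only [← mul_assoc, hc]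
      abel

theorem sh_tr (h : Sh w γ X) : Sh w (-γ) Xᵀ := fun a b e => by rw [h b a e, add_neg_cancel_right]

theorem ee_gl [IsAlgClosed K] (r : Fin 6) : E (ee r) ∈ gl K :=
  (ext_iff_xt.1 ⟨ee_ne r, (ee_nl r).1, fun t x => by
    simpa only [add_mulVec, one_mulVec, smul_mulVec] using (ee_nl r).2 t x⟩).mem

theorem p3 : P3 := fun K _ _ _ Y hY he hf hn => by
  obtain ⟨y, rfl⟩ := E.surjective Y
  have h1 : ∀ γ X, Sh w γ X → E X ∈ gl K → γ 0 = -1 → Commute y X := fun γ X a b c =>
    E.injective (by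
      rw [map_mul, map_mul]
      refine hn _ b ?_
      rw [Dg, h0_eq, ← map_mul, hh_mul a, c, map_add, map_mul, map_smul, add_sub_cancel_left])
  have h2 : Commute y (ee 0) := E.injective (by rw [map_mul, map_mul, ← e0_eq, he])
  have h3 : Commute y (ff 0) := E.injective (by rw [map_mul, map_mul, ← f0_eq, hf])
  have br : ∀ {A B}, Commute y A → Commute y B → Commute y (A * B - B * A) := fun a b =>
    (a.mul_right b).sub_right (b.mul_right a)
  have ok : ∀ r {γ X}, Sh w γ X ∧ E X ∈ gl K →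
      Sh w (al r + γ) (ee r * X - X * ee r) ∧ E (ee r * X - X * ee r) ∈ gl K := fun r γ X a =>
    ⟨Sh.br (ee_sh r) a.1, by rw [map_sub, map_mul, map_mul]; exact gl_br (ee_gl r) a.2⟩
  have o : ∀ r, Sh w (al r) (ee r : Matrix I I K) ∧ E (ee r) ∈ gl K := fun r => ⟨ee_sh r, ee_gl r⟩
  have base : ∀ {γ X}, Sh w γ X ∧ E X ∈ gl K → γ 0 = -1 → Commute y X ∧ Commute y Xᵀ :=
    fun {γ X} a b => ⟨h1 _ _ a.1 a.2 b, by
      have z : ∀ A : Matrix I I K, Sh w (-al 0 + γ) A → A = 0 := fun A h => Matrix.ext fun c d =>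
        by_contra fun e => by
          have h4 := congrFun (h c d e) 0
          have := (tab 0 c).2.2.2.2
          have := (tab 0 d).2.2.2.2
          simp only [Pi.add_apply, Pi.neg_apply, al_self] at h4
          omega
      rw [peel 0 a.1 b ((z _ ((ff_sh 0).mul a.1)).trans
        (z _ (add_comm γ _ ▸ a.1.mul (ff_sh 0))).symm), transpose_sub, transpose_mul,
        transpose_mul, ← ee_tr, transpose_transpose]
      exact br (h1 _ _ (sh_tr (ok 0 a).1) (tp_E (K := K) _ ▸ gl_tp (ok 0 a).2)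
        (by simp [b, al_self])) h2⟩
  have step : ∀ r {γ X}, Sh w γ X ∧ E X ∈ gl K → γ r = -1 → ff r * X = X * ff r →
      Commute y (ee r) ∧ Commute y (ee r)ᵀ → Commute y (ee r * X - X * ee r) ∧
      Commute y (ee r * X - X * ee r)ᵀ → Commute y X ∧ Commute y Xᵀ := fun r γ X a b c d e => by
    have := peel r a.1 b c
    generalize ee r * X - X * ee r = A at this e
    rw [this, transpose_sub, transpose_mul, transpose_mul, ← ee_tr, transpose_transpose]
    exact ⟨br d.2 e.1, br e.2 d.1⟩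
  have cm : ∀ r q, q ≠ r → Commute (ff r : Matrix I I K) (ee q) := fun r q h => (ee_cm h).symm
  have b2 : ∀ {r} {A B : Matrix I I K}, Commute (ff r) A → Commute (ff r) B →
      Commute (ff r) (A * B - B * A) := fun a b => (a.mul_right b).sub_right (b.mul_right a)
  have c1 := base (o 1) rfl
  have c2 := step 1 (o 2) rfl (cm _ _ (by decide)) c1 (base (ok 1 (o 2)) rfl)
  have c3 : ∀ r, al r 2 = -1 → al r 1 = 0 → al r 0 = 0 → Commute y (ee r) ∧ Commute y (ee r)ᵀ :=
    fun r a b c => step 2 (o r) a (cm _ _ (by rintro rfl; simp [al_self] at a)) c2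
      (step 1 (ok 2 (o r)) (by rw [Pi.add_apply, b]; rfl) (b2 (cm _ _ (by decide))
        (cm _ _ (by rintro rfl; simp [al_self] at b))) c1
        (base (ok 1 (ok 2 (o r))) (by rw [Pi.add_apply, Pi.add_apply, c]; rfl)))
  have c4 := step 3 (o 4) rfl (cm _ _ (by decide)) (c3 3 rfl rfl rfl) (step 2 (ok 3 (o 4)) rfl
    (b2 (cm _ _ (by decide)) (cm _ _ (by decide))) c2 (step 1 (ok 2 (ok 3 (o 4))) rfl
    (b2 (cm _ _ (by decide)) (b2 (cm _ _ (by decide)) (cm _ _ (by decide)))) c1
    (base (ok 1 (ok 2 (ok 3 (o 4)))) rfl)))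
  have c : ∀ r, Commute y (ee r) ∧ Commute y (ee r)ᵀ := fun r => by
    fin_cases r
    exacts [⟨h2, ee_tr (K := K) 0 ▸ h3⟩, c1, c2, c3 3 rfl rfl rfl, c4, c3 5 rfl rfl rfl]
  obtain ⟨k, rfl⟩ := schur (fun r => (c r).1.symm) fun r => ee_tr (K := K) r ▸ (c r).2.symm
  obtain ⟨x, hx⟩ : ∃ x, N x = (-1 : K) := ⟨co.symm _, by
    rw [← cub_co, LinearEquiv.apply_symm_apply, cub_val]⟩
  have := hY.1 x x x
  simp only [map_smul, map_one, LinearMap.smul_apply, Module.End.one_apply, T_self, hx,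
    smul_eq_mul] at this
  rw [show k = 0 by linear_combination (-1 / 18) * this, zero_smul, map_zero]

end Vale.Agent.P011LM
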